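import Vale.Agent.P258.R2.H370.Gen

set_option linter.all false

/-!
The enumeration of the colourings of the second pattern by elements of `SL(2, p)`, as nested
functions of the codes of the colours found so far.
-/

namespace Vale.Agent.P258.Gen

def lamN (p g26 g25 g31 g11 g10 g9 g8 g29 g6 g5 g4 g3 g22 g21 g20 g19 g18 g0 g16 g15 g14 g13 g12
    g2 g1 g7 g17 : ℕ) : ℕ :=
  mulN p (mulN p (mulN p (mulN p (mulN p (mulN p (mulN p (mulN p (mulN p (mulN p (mulN p (mulN p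
    (mulN p (mulN p (mulN p (mulN p (mulN p (mulN p (mulN p (mulN p (mulN p (mulN p (mulN p (mulN p
    (mulN p (mulN p (mulN p (mulN p (mulN p (mulN p (mulN p (invN p g26) (invN p g25))
    (invN p g31)) g11) g10) g9) g8) (invN p g29)) g6) g5) g4) g3) g22) g21) g20) g19) g18) g0)
    g16) g15) g14) g13) g12) g31) (invN p g2)) (invN p g1)) (invN p g0)) g7) (invN p g8))
    (invN p g7)) g17) (inv13 p g0)

def st36 (m : Bool) (p : ℕ) (w : ℕ → ℕ) (cl cen : List ℕ) (g7 g29 g8 g28 g30 g6 g9 g27 g5 g10 g4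
    g11 g3 g12 g23 g22 g13 g21 g14
    g20 g15 g19 g16 g18 g17 g0 g26 g1 g25 g2 g24 g31 g32 : ℕ) : Bool :=
  (Nat.beq (mulN p g24 (invN p g2)) 32769 && !(Nat.beq g31 32769)) ||
    !(cond m (Nat.beq (mulN p (mulN p g0 g0) (lamN p g26 g25 g31 g11 g10 g9 g8 g29 g6 g5 g4 g3 g22
      g21 g20 g19 g18 g0 g16 g15 g14 g13 g12 g2 g1 g7 g17)) 32769)
      (Nat.beq (mulN p g0 g0) (lamN p g26 g25 g31 g11 g10 g9 g8 g29 g6 g5 g4 g3 g22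
      g21 g20 g19 g18 g0 g16 g15 g14 g13 g12 g2 g1 g7 g17)))

def st35 (m : Bool) (p : ℕ) (w : ℕ → ℕ) (cl cen : List ℕ) (g7 g29 g8 g28 g30 g6 g9 g27 g5 g10 g4
    g11 g3 g12 g23 g22 g13 g21 g14
    g20 g15 g19 g16 g18 g17 g0 g26 g1 g25 g2 g24 g31 g32 : ℕ) : Bool :=
  !(Nat.beq g32 (cjN p g31 g2)) || st36 m p w cl cen g7 g29 g8 g28 g30 g6 g9 g27 g5 g10 g4 g11 g3
    g12 g23
    g22 g13 g21 g14 g20 g15 g19 g16 g18 g17 g0 g26 g1 g25 g2 g24 g31 g32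

def st34 (m : Bool) (p : ℕ) (w : ℕ → ℕ) (cl cen : List ℕ) (g7 g29 g8 g28 g30 g6 g9 g27 g5 g10 g4
    g11 g3 g12 g23 g22 g13 g21 g14
    g20 g15 g19 g16 g18 g17 g0 g26 g1 g25 g2 g24 g31 : ℕ) : Bool :=
  force (cjN p g31 g24) fun g32 => st35 m p w cl cen g7 g29 g8 g28 g30 g6 g9 g27 g5 g10 g4 g11 g3
    g12 g23
    g22 g13 g21 g14 g20 g15 g19 g16 g18 g17 g0 g26 g1 g25 g2 g24 g31 g32

def st33 (m : Bool) (p : ℕ) (w : ℕ → ℕ) (cl cen : List ℕ) (g7 g29 g8 g28 g30 g6 g9 g27 g5 g10 g4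
    g11 g3 g12 g23 g22 g13 g21 g14
    g20 g15 g19 g16 g18 g17 g0 g26 g1 g25 g2 g24 g31 : ℕ) : Bool :=
  !(Nat.beq g2 (cjN p g3 g31)) || st34 m p w cl cen g7 g29 g8 g28 g30 g6 g9 g27 g5 g10 g4 g11 g3
    g12 g23
    g22 g13 g21 g14 g20 g15 g19 g16 g18 g17 g0 g26 g1 g25 g2 g24 g31

def st32 (m : Bool) (p : ℕ) (w : ℕ → ℕ) (cl cen : List ℕ) (g7 g29 g8 g28 g30 g6 g9 g27 g5 g10 g4
    g11 g3 g12 g23 g22 g13 g21 g14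
    g20 g15 g19 g16 g18 g17 g0 g26 g1 g25 g2 g24 : ℕ) : Bool :=
  cen.all fun c => force (mulN p (mulN p (invN p (w g23)) c) (w g24)) fun g31 => st33 m p w cl cen
    g7 g29 g8
    g28 g30 g6 g9 g27 g5 g10 g4 g11 g3 g12 g23 g22 g13 g21 g14 g20 g15 g19 g16 g18 g17 g0 g26 g1
    g25 g2 g24 g31

def st31 (m : Bool) (p : ℕ) (w : ℕ → ℕ) (cl cen : List ℕ) (g7 g29 g8 g28 g30 g6 g9 g27 g5 g10 g4
    g11 g3 g12 g23 g22 g13 g21 g14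
    g20 g15 g19 g16 g18 g17 g0 g26 g1 g25 g2 : ℕ) : Bool :=
  force (cjN p g25 g2) fun g24 => st32 m p w cl cen g7 g29 g8 g28 g30 g6 g9 g27 g5 g10 g4 g11 g3
    g12 g23
    g22 g13 g21 g14 g20 g15 g19 g16 g18 g17 g0 g26 g1 g25 g2 g24

def st30 (m : Bool) (p : ℕ) (w : ℕ → ℕ) (cl cen : List ℕ) (g7 g29 g8 g28 g30 g6 g9 g27 g5 g10 g4
    g11 g3 g12 g23 g22 g13 g21 g14
    g20 g15 g19 g16 g18 g17 g0 g26 g1 g25 : ℕ) : Bool :=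
  force (ciN p g1 g25) fun g2 => st31 m p w cl cen g7 g29 g8 g28 g30 g6 g9 g27 g5 g10 g4 g11 g3 g12
    g23
    g22 g13 g21 g14 g20 g15 g19 g16 g18 g17 g0 g26 g1 g25 g2

def st29 (m : Bool) (p : ℕ) (w : ℕ → ℕ) (cl cen : List ℕ) (g7 g29 g8 g28 g30 g6 g9 g27 g5 g10 g4
    g11 g3 g12 g23 g22 g13 g21 g14
    g20 g15 g19 g16 g18 g17 g0 g26 g1 : ℕ) : Bool :=
  force (cjN p g26 g1) fun g25 => st30 m p w cl cen g7 g29 g8 g28 g30 g6 g9 g27 g5 g10 g4 g11 g3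
    g12 g23
    g22 g13 g21 g14 g20 g15 g19 g16 g18 g17 g0 g26 g1 g25

def st28 (m : Bool) (p : ℕ) (w : ℕ → ℕ) (cl cen : List ℕ) (g7 g29 g8 g28 g30 g6 g9 g27 g5 g10 g4
    g11 g3 g12 g23 g22 g13 g21 g14
    g20 g15 g19 g16 g18 g17 g0 g26 : ℕ) : Bool :=
  force (ciN p g0 g26) fun g1 => st29 m p w cl cen g7 g29 g8 g28 g30 g6 g9 g27 g5 g10 g4 g11 g3 g12
    g23
    g22 g13 g21 g14 g20 g15 g19 g16 g18 g17 g0 g26 g1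

def st27 (m : Bool) (p : ℕ) (w : ℕ → ℕ) (cl cen : List ℕ) (g7 g29 g8 g28 g30 g6 g9 g27 g5 g10 g4
    g11 g3 g12 g23 g22 g13 g21 g14
    g20 g15 g19 g16 g18 g17 g0 : ℕ) : Bool :=
  force (cjN p g27 g0) fun g26 => st28 m p w cl cen g7 g29 g8 g28 g30 g6 g9 g27 g5 g10 g4 g11 g3
    g12 g23
    g22 g13 g21 g14 g20 g15 g19 g16 g18 g17 g0 g26

def st26 (m : Bool) (p : ℕ) (w : ℕ → ℕ) (cl cen : List ℕ) (g7 g29 g8 g28 g30 g6 g9 g27 g5 g10 g4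
    g11 g3 g12 g23 g22 g13 g21 g14
    g20 g15 g19 g16 g18 g17 g0 : ℕ) : Bool :=
  !(Nat.beq g18 (cjN p g17 g0)) || st27 m p w cl cen g7 g29 g8 g28 g30 g6 g9 g27 g5 g10 g4 g11 g3
    g12 g23
    g22 g13 g21 g14 g20 g15 g19 g16 g18 g17 g0

def st25 (m : Bool) (p : ℕ) (w : ℕ → ℕ) (cl cen : List ℕ) (g7 g29 g8 g28 g30 g6 g9 g27 g5 g10 g4
    g11 g3 g12 g23 g22 g13 g21 g14
    g20 g15 g19 g16 g18 g17 : ℕ) : Bool :=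
  force (cjN p g30 g17) fun g0 => st26 m p w cl cen g7 g29 g8 g28 g30 g6 g9 g27 g5 g10 g4 g11 g3
    g12 g23
    g22 g13 g21 g14 g20 g15 g19 g16 g18 g17 g0

def st24 (m : Bool) (p : ℕ) (w : ℕ → ℕ) (cl cen : List ℕ) (g7 g29 g8 g28 g30 g6 g9 g27 g5 g10 g4
    g11 g3 g12 g23 g22 g13 g21 g14
    g20 g15 g19 g16 g18 : ℕ) : Bool :=
  force (cjN p g16 g18) fun g17 => st25 m p w cl cen g7 g29 g8 g28 g30 g6 g9 g27 g5 g10 g4 g11 g3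
    g12 g23
    g22 g13 g21 g14 g20 g15 g19 g16 g18 g17

def st23 (m : Bool) (p : ℕ) (w : ℕ → ℕ) (cl cen : List ℕ) (g7 g29 g8 g28 g30 g6 g9 g27 g5 g10 g4
    g11 g3 g12 g23 g22 g13 g21 g14
    g20 g15 g19 g16 : ℕ) : Bool :=
  force (ciN p g19 g16) fun g18 => st24 m p w cl cen g7 g29 g8 g28 g30 g6 g9 g27 g5 g10 g4 g11 g3
    g12 g23
    g22 g13 g21 g14 g20 g15 g19 g16 g18

def st22 (m : Bool) (p : ℕ) (w : ℕ → ℕ) (cl cen : List ℕ) (g7 g29 g8 g28 g30 g6 g9 g27 g5 g10 g4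
    g11 g3 g12 g23 g22 g13 g21 g14
    g20 g15 g19 : ℕ) : Bool :=
  force (cjN p g15 g19) fun g16 => st23 m p w cl cen g7 g29 g8 g28 g30 g6 g9 g27 g5 g10 g4 g11 g3
    g12 g23
    g22 g13 g21 g14 g20 g15 g19 g16

def st21 (m : Bool) (p : ℕ) (w : ℕ → ℕ) (cl cen : List ℕ) (g7 g29 g8 g28 g30 g6 g9 g27 g5 g10 g4
    g11 g3 g12 g23 g22 g13 g21 g14
    g20 g15 : ℕ) : Bool :=
  force (ciN p g20 g15) fun g19 => st22 m p w cl cen g7 g29 g8 g28 g30 g6 g9 g27 g5 g10 g4 g11 g3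
    g12 g23
    g22 g13 g21 g14 g20 g15 g19

def st20 (m : Bool) (p : ℕ) (w : ℕ → ℕ) (cl cen : List ℕ) (g7 g29 g8 g28 g30 g6 g9 g27 g5 g10 g4
    g11 g3 g12 g23 g22 g13 g21 g14
    g20 : ℕ) : Bool :=
  force (cjN p g14 g20) fun g15 => st21 m p w cl cen g7 g29 g8 g28 g30 g6 g9 g27 g5 g10 g4 g11 g3
    g12 g23
    g22 g13 g21 g14 g20 g15

def st19 (m : Bool) (p : ℕ) (w : ℕ → ℕ) (cl cen : List ℕ) (g7 g29 g8 g28 g30 g6 g9 g27 g5 g10 g4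
    g11 g3 g12 g23 g22 g13 g21 g14 :
    ℕ) : Bool :=
  force (ciN p g21 g14) fun g20 => st20 m p w cl cen g7 g29 g8 g28 g30 g6 g9 g27 g5 g10 g4 g11 g3
    g12 g23
    g22 g13 g21 g14 g20

def st18 (m : Bool) (p : ℕ) (w : ℕ → ℕ) (cl cen : List ℕ) (g7 g29 g8 g28 g30 g6 g9 g27 g5 g10 g4
    g11 g3 g12 g23 g22 g13 g21 : ℕ)
    : Bool :=
  force (cjN p g13 g21) fun g14 => st19 m p w cl cen g7 g29 g8 g28 g30 g6 g9 g27 g5 g10 g4 g11 g3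
    g12 g23
    g22 g13 g21 g14

def st17 (m : Bool) (p : ℕ) (w : ℕ → ℕ) (cl cen : List ℕ) (g7 g29 g8 g28 g30 g6 g9 g27 g5 g10 g4
    g11 g3 g12 g23 g22 g13 : ℕ) :
    Bool :=
  force (ciN p g22 g13) fun g21 => st18 m p w cl cen g7 g29 g8 g28 g30 g6 g9 g27 g5 g10 g4 g11 g3
    g12 g23
    g22 g13 g21

def st16 (m : Bool) (p : ℕ) (w : ℕ → ℕ) (cl cen : List ℕ) (g7 g29 g8 g28 g30 g6 g9 g27 g5 g10 g4
    g11 g3 g12 g23 g22 : ℕ) : Bool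
    :=
  force (cjN p g12 g22) fun g13 => st17 m p w cl cen g7 g29 g8 g28 g30 g6 g9 g27 g5 g10 g4 g11 g3
    g12 g23
    g22 g13

def st15 (m : Bool) (p : ℕ) (w : ℕ → ℕ) (cl cen : List ℕ) (g7 g29 g8 g28 g30 g6 g9 g27 g5 g10 g4
    g11 g3 g12 g23 : ℕ) : Bool :=
  force (ciN p g23 g12) fun g22 => st16 m p w cl cen g7 g29 g8 g28 g30 g6 g9 g27 g5 g10 g4 g11 g3
    g12 g23
    g22

def st14 (m : Bool) (p : ℕ) (w : ℕ → ℕ) (cl cen : List ℕ) (g7 g29 g8 g28 g30 g6 g9 g27 g5 g10 g4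
    g11 g3 g12 : ℕ) : Bool :=
  cl.all fun g23 => st15 m p w cl cen g7 g29 g8 g28 g30 g6 g9 g27 g5 g10 g4 g11 g3 g12 g23

def st13 (m : Bool) (p : ℕ) (w : ℕ → ℕ) (cl cen : List ℕ) (g7 g29 g8 g28 g30 g6 g9 g27 g5 g10 g4
    g11 g3 : ℕ) : Bool :=
  force (cjN p g11 g3) fun g12 => st14 m p w cl cen g7 g29 g8 g28 g30 g6 g9 g27 g5 g10 g4 g11 g3 g12

def st12 (m : Bool) (p : ℕ) (w : ℕ → ℕ) (cl cen : List ℕ) (g7 g29 g8 g28 g30 g6 g9 g27 g5 g10 g4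
    g11 : ℕ) : Bool :=
  force (ciN p g4 g11) fun g3 => st13 m p w cl cen g7 g29 g8 g28 g30 g6 g9 g27 g5 g10 g4 g11 g3

def st11 (m : Bool) (p : ℕ) (w : ℕ → ℕ) (cl cen : List ℕ) (g7 g29 g8 g28 g30 g6 g9 g27 g5 g10 g4 :
    ℕ) : Bool :=
  force (cjN p g10 g4) fun g11 => st12 m p w cl cen g7 g29 g8 g28 g30 g6 g9 g27 g5 g10 g4 g11

def st10 (m : Bool) (p : ℕ) (w : ℕ → ℕ) (cl cen : List ℕ) (g7 g29 g8 g28 g30 g6 g9 g27 g5 g10 : ℕ)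
    : Bool :=
  force (ciN p g5 g10) fun g4 => st11 m p w cl cen g7 g29 g8 g28 g30 g6 g9 g27 g5 g10 g4

def st9 (m : Bool) (p : ℕ) (w : ℕ → ℕ) (cl cen : List ℕ) (g7 g29 g8 g28 g30 g6 g9 g27 g5 : ℕ) :
    Bool :=
  force (cjN p g9 g5) fun g10 => st10 m p w cl cen g7 g29 g8 g28 g30 g6 g9 g27 g5 g10

def st8 (m : Bool) (p : ℕ) (w : ℕ → ℕ) (cl cen : List ℕ) (g7 g29 g8 g28 g30 g6 g9 g27 : ℕ) : Bool :=
  force (ciN p g6 g9) fun g5 => st9 m p w cl cen g7 g29 g8 g28 g30 g6 g9 g27 g5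

def st7 (m : Bool) (p : ℕ) (w : ℕ → ℕ) (cl cen : List ℕ) (g7 g29 g8 g28 g30 g6 g9 : ℕ) : Bool :=
  force (ciN p g28 g7) fun g27 => st8 m p w cl cen g7 g29 g8 g28 g30 g6 g9 g27

def st6 (m : Bool) (p : ℕ) (w : ℕ → ℕ) (cl cen : List ℕ) (g7 g29 g8 g28 g30 g6 : ℕ) : Bool :=
  force (cjN p g8 g6) fun g9 => st7 m p w cl cen g7 g29 g8 g28 g30 g6 g9

def st5 (m : Bool) (p : ℕ) (w : ℕ → ℕ) (cl cen : List ℕ) (g7 g29 g8 g28 g30 : ℕ) : Bool :=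
  force (ciN p g7 g8) fun g6 => st6 m p w cl cen g7 g29 g8 g28 g30 g6

def st4 (m : Bool) (p : ℕ) (w : ℕ → ℕ) (cl cen : List ℕ) (g7 g29 g8 g28 : ℕ) : Bool :=
  force (ciN p g29 g7) fun g30 => st5 m p w cl cen g7 g29 g8 g28 g30

def st3 (m : Bool) (p : ℕ) (w : ℕ → ℕ) (cl cen : List ℕ) (g7 g29 g8 : ℕ) : Bool :=
  force (cjN p g29 g8) fun g28 => st4 m p w cl cen g7 g29 g8 g28

def st2 (m : Bool) (p : ℕ) (w : ℕ → ℕ) (cl cen : List ℕ) (g7 g29 : ℕ) : Bool :=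
  force (ciN p g7 g29) fun g8 => st3 m p w cl cen g7 g29 g8

def st1 (m : Bool) (p : ℕ) (w : ℕ → ℕ) (cl cen rp : List ℕ) (g7 : ℕ) : Bool :=
  rp.all fun g29 => st2 m p w cl cen g7 g29

def st0 (m : Bool) (p : ℕ) (w : ℕ → ℕ) (rep : ℕ) (cl cen rp : List ℕ) : Bool :=
  force rep fun g7 => st1 m p w cl cen rp g7

end Vale.Agent.P258.Gen
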